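import Vale.Agent.P011.D4X.H69.Z5
import Vale.Agent.P011.D4X.H62.KC

/-!
Block D4X: Z5 for the data of a change of the quadratic field.
-/

namespace Vale.Agent.P011.D4X

open Vale.Agent.P011.MPQ Vale.Agent.P011.D4 Vale.Agent.P011.D4.Oct Vale.Agent.P011.E6
open Vale.Agent.P011.D4X.H62 (oin qin IsBc KCH)

section main

variable {k L E E1 O : Type} [Field k] [Field L] [Field E] [Field E1] [Field O] [Algebra k L]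
  [Algebra k E] [Algebra L E] [Algebra k E1] [Algebra L E1] [Algebra k O] [Algebra L O]
  [Algebra E O] [Algebra E1 O] [IsScalarTower k L E] [IsScalarTower k L E1]
  [IsScalarTower k E O] [IsScalarTower k E1 O]
  [NeZero (2 : k)] [NeZero (2 : E)] [NeZero (2 : E1)] [NeZero (2 : O)]
  {ρ σ : E ≃ₐ[k] E} {ρL : L ≃ₐ[k] L} {ρ1 σ1 : E1 ≃ₐ[k] E1} {ρ' σ' τ' : O ≃ₐ[k] O} {α : E} {α1 : E1}
  {a b c a1 b1 c1 : kˣ} {q q1 : Lˣ} {u : OctL O a1 b1 c1 ≃ₗ[O] OctL O a b c} {b' c' : kˣ}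
  {j l : Oct a b c}

theorem oO_eq (x : OctL E a b c) : oO O x = oin O x := rfl

/-- **Z5**, for the data of a change of the quadratic field. -/
theorem z5_K (H : Hy ρ σ ρL α a b c q) (H1 : Hy ρ1 σ1 ρL α1 a1 b1 c1 q1)
    (K : KCH ρ σ ρ1 σ1 ρ' σ' τ' α α1 q q1 u) (σ2 : ∀ t, σ' (σ' t) = t)
    (φ : AT ρ σ α a b c q ≃* AT ρ1 σ1 α1 a1 b1 c1 q1)
    (eqv : ∀ (z : AT ρ σ α a b c q) (Z : OctL O a b c ≃ₗ[O] OctL O a b c), IsBc O z.1 Z →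
      ∀ x : OctL E1 a1 b1 c1, u (oin O ((φ z).1 x)) = Z (u (oin O x)))
    (kp : ∀ (z : AT ρ σ α a b c q) (κ : Lˣ), IsKap ρ z.1 κ ↔ IsKap ρ1 (φ z).1 κ)
    (hgen : ∀ v : OctL E1 a1 b1 c1, Pt ρ1 v → ∃ y ∈ stabs ρ1 σ1 α1 a1 b1 c1 q1, ∃ t : E1,
      t ≠ 0 ∧ y.1 (tri ρ1 v (Jm ρ1 σ1 α1 q1 v)) = t • ep α1)
    (h : Trip a b' c' gi j l) {w : Qt a b'} (hw0 : w.re = 0)
    (hw : w * w = (a1 : k) • (1 : Qt a b')) :
    ∃ y ∈ stabs ρ1 σ1 α1 a1 b1 c1 q1, ∃ (b2 c2 : kˣ) (j1 l1 : Oct a1 b1 c1)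
      (h1 : Trip a1 b2 c2 gi j1 l1), y * φ (tAT ρ σ α q h) * y⁻¹ = tAT ρ1 σ1 α1 q1 h1 := by
  obtain ⟨e, he, hu⟩ := K.hu
  obtain ⟨s, hs, hJ⟩ := K.hJ
  have hα : algebraMap E O α ≠ 0 := by
    rw [ne_eq, map_eq_zero]
    intro h0
    have h1 := H.α2
    rw [h0, mul_zero] at h1
    exact (map_ne_zero (algebraMap k E)).mpr a.ne_zero h1.symm
  exact z5 H1 K.hρ1 K.hσ1 K.fσ σ2 (by rw [K.hσ, H.σα, map_neg]) hα he hs hu hJ φ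
    (fun z zO hz x => eqv z zO hz x) (fun z κ => (kp z κ).mp) hgen h hw0 hw

end main

end Vale.Agent.P011.D4X
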