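import Vale.Agent.P011.D4X.H69.NearX
import Vale.Agent.P011.D4X.H862.BaseX

/-!
Block D4X: the planes of the singular elements near the standard one.
-/

open Filter Topology NumberField
open scoped ComplexConjugate

set_option linter.unusedSectionVars false

namespace Vale.Agent.P011.D4X

open Vale.Agent.P011.MPQ Vale.Agent.P011.D4 Vale.Agent.P011.D4.Oct

section

variable {k L E : Type} [Field k] [NumberField k] [Field L] [Field E] [Algebra k L] [Algebra k E]
  [Algebra L E] [IsScalarTower k L E] {ρ σ : E ≃ₐ[k] E} {ρL : L ≃ₐ[k] L} {α : E}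
  {a b c : kˣ} {q : Lˣ} (H : Hy ρ σ ρL α a b c q) [NeZero (2 : E)] {P : Subgroup Lˣ}
  (hP : ∀ κ : Lˣ, (∀ w : L →+* ℝ, w (algebraMap k L a) < 0 → 0 < w (κ : L)) → κ ∈ P)

include H hP

/-- **The planes of the singular elements near the standard one.** -/
theorem near_gen : ∀ᶠ v in nh (Bd ρ σ q) (ep α * oup E (gl : Oct a b c)), Pt ρ v →
    PPP P ρ σ α q v := by
  obtain ⟨p, u0, z0, c1, c2, c3, c4, c5, c6, ⟨s, hs, c7⟩, e1, e2, e3, c8⟩ := H862.base_data H P
  have hv0 := H862.pt_vl (b := b) (c := c) H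
  have h0 := H862.hh_vl_ne (b := b) (c := c) H
  have h1 := H862.ppp_vl (b := b) (c := c) H hP
  have hone : ∀ {x : OctL E a b c}, hh ρ σ α q x = hh ρ σ α q (H862.vl α a b c) →
      ∀ W ∈ Bd ρ σ q, 0 < (W (Oct.bil x (Jm ρ σ α q x) /
        Oct.bil (H862.vl α a b c) (Jm ρ σ α q (H862.vl α a b c)))).re := by
    intro x hx W _
    change 0 < (W (hh ρ σ α q x / hh ρ σ α q (H862.vl α a b c))).re
    rw [hx, div_self h0, map_one, Complex.one_re]
    exact one_pos
  rw [← H862.vl_eq]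
  exact near_gen_of H (Bd_finite H) (rho_ne H) (P := PPP P ρ σ α q)
    (fun v v' g1 g2 g3 g4 g5 => stepB H hP g1 g2 g3 (fun W hW => g4 W hW) g5)
    c1 c2 hv0 c3 c4 c5 c6 hs c7 h0 (hone e1) (hone e2) (hone e3) (c8 h1)

end

end Vale.Agent.P011.D4X
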