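import Vale.Agent.P011.D4X.H69.Path
import Vale.Agent.P011.D4X.H657.Bas

/-!
Block D4X: the singular elements near a given one, from the step lemma and a chain.
-/

open Filter Topology
open scoped ComplexConjugate

set_option linter.unusedSectionVars false

namespace Vale.Agent.P011.D4X

open Vale.Agent.P011.MPQ Vale.Agent.P011.D4 Vale.Agent.P011.D4.Oct

section

variable {k L E : Type} [Field k] [Field L] [Field E] [Algebra k L] [Algebra k E] [Algebra L E]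
  [IsScalarTower k L E] {ρ σ : E ≃ₐ[k] E} {ρL : L ≃ₐ[k] L} {α : E} {a b c : kˣ} {q : Lˣ}

/-- The embeddings over the real places where the group is isotropic. -/
def Bd (ρ σ : E ≃ₐ[k] E) (q : Lˣ) : Set (E →+* ℂ) :=
  {W | (∀ x, W (σ x) = conj (W x)) ∧ ¬ (0 < (W (algebraMap L E q)).re ∧
    0 < (W (ρ (algebraMap L E q))).re ∧ 0 < (W (ρ (ρ (algebraMap L E q)))).re)}

theorem Bd_im {W : E →+* ℂ} (hW : W ∈ Bd ρ σ q) {x : E} (hx : σ x = x) : (W x).im = 0 := by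
  have h1 := hW.1 x
  rw [hx] at h1
  exact Complex.conj_eq_iff_im.1 h1.symm

theorem Bd_pos {W : E →+* ℂ} (hW : W ∈ Bd ρ σ q) {x y z : E} (hx : σ x = x) (hy : σ y = y)
    (hz : σ z = z) (h1 : 0 < (W (x / z)).re) (h2 : 0 < (W (y / z)).re) : 0 < (W (x / y)).re := by
  have hz0 : z ≠ 0 := by
    rintro rfl
    rw [div_zero, map_zero, Complex.zero_re] at h1
    exact lt_irrefl _ h1
  have e : x / y = (x / z) / (y / z) := by
    rw [div_div_div_cancel_right₀ hz0]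
  have i1 : (W (x / z)).im = 0 := Bd_im hW (by rw [map_div₀, hx, hz])
  have i2 : (W (y / z)).im = 0 := Bd_im hW (by rw [map_div₀, hy, hz])
  have e1 : W (x / z) = ((W (x / z)).re : ℂ) := Complex.ext rfl (by rw [i1, Complex.ofReal_im])
  have e2 : W (y / z) = ((W (y / z)).re : ℂ) := Complex.ext rfl (by rw [i2, Complex.ofReal_im])
  rw [e, map_div₀, e1, e2, ← Complex.ofReal_div, Complex.ofReal_re]
  exact div_pos h1 h2

variable (H : Hy ρ σ ρL α a b c q)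

include H

theorem Bd_rho : ∀ W ∈ Bd ρ σ q, W.comp (ρ : E →+* E) ∈ Bd ρ σ q := by
  rintro W ⟨h1, h2⟩
  refine ⟨fun x => ?_, fun h3 => h2 ?_⟩
  · change W (ρ (σ x)) = conj (W (ρ x))
    rw [← H.comm, h1]
  · obtain ⟨g1, g2, g3⟩ := h3
    change 0 < (W (ρ _)).re at g1
    change 0 < (W (ρ (ρ _))).re at g2
    change 0 < (W (ρ (ρ (ρ _)))).re at g3
    rw [H.ρ3] at g3
    exact ⟨g3, g1, g2⟩

theorem Bd_sig : ∀ W ∈ Bd ρ σ q, W.comp (σ : E →+* E) ∈ Bd ρ σ q := by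
  rintro W ⟨h1, h2⟩
  refine ⟨fun x => ?_, fun h3 => h2 ?_⟩
  · change W (σ (σ x)) = conj (W (σ x))
    rw [h1]
  · obtain ⟨g1, g2, g3⟩ := h3
    change 0 < (W (σ _)).re at g1
    change 0 < (W (σ (ρ _))).re at g2
    change 0 < (W (σ (ρ (ρ _)))).re at g3
    rw [H.σL] at g1
    rw [H.comm, H.σL] at g2
    rw [H.comm, H.comm, H.σL] at g3
    exact ⟨g1, g2, g3⟩

variable [NeZero (2 : E)]

theorem bJ_fix (v : OctL E a b c) :
    σ (bil v (Jm ρ σ α q v)) = bil v (Jm ρ σ α q v) := by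
  have h1 := bil_Jm H v (Jm ρ σ α q v)
  rw [Jm_Jm H, bil_smul_right, bil_comm (Jm ρ σ α q v) v] at h1
  have h2 : rr ρ q ≠ 0 := by
    rw [rr_eq]
    have h3 : algebraMap L E (q : L) ≠ 0 := (map_ne_zero _).2 q.ne_zero
    exact mul_ne_zero (mul_ne_zero h3 h3) ((map_ne_zero_iff ρ ρ.injective).2 h3)
  exact (mul_left_cancel₀ h2 h1).symm

theorem bJ_smul (t : E) (v : OctL E a b c) :
    bil (t • v) (Jm ρ σ α q (t • v)) = t * σ t * bil v (Jm ρ σ α q v) := by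
  rw [Jm_smul H, bil_smul_left, bil_smul_right, mul_assoc]

theorem Bd_norm {W : E →+* ℂ} (hW : W ∈ Bd ρ σ q) {t : E} (ht : t ≠ 0) {x y : E}
    (h : 0 < (W (x / y)).re) : 0 < (W (t * σ t * x / y)).re := by
  rw [mul_div_assoc, map_mul, map_mul, hW.1 t, Complex.mul_conj, Complex.re_ofReal_mul]
  exact mul_pos (Complex.normSq_pos.2 ((map_ne_zero W).2 ht)) h

/-- **The singular elements near a given one**, from the step lemma and a chain. -/
theorem near_gen_of (hS : (Bd ρ σ q).Finite) (hne : ρ ≠ 1) {P : OctL E a b c → Prop}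
    (step : ∀ v v' : OctL E a b c, Pt ρ v → Pt ρ v' → Nb ρ v v' →
      (∀ W ∈ Bd ρ σ q, 0 < (W (bil v' (Jm ρ σ α q v') / bil v (Jm ρ σ α q v))).re) → P v → P v')
    {p u0 z0 v0 : OctL E a b c} (hp : Pt ρ p) (hu : Pt ρ u0) (hv0 : Pt ρ v0) (hpu : Nb ρ p u0)
    (hpt : ∀ t : E, u0 ≠ t • p) (hpv : bil p v0 ≠ 0) (huv : bil u0 v0 = 0) {s : E} (hs : s ≠ 0)
    (hz : tri ρ u0 v0 = s • z0) (h0 : bil v0 (Jm ρ σ α q v0) ≠ 0)
    (h1 : ∀ W ∈ Bd ρ σ q, 0 < (W (bil p (Jm ρ σ α q p) / bil v0 (Jm ρ σ α q v0))).re)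
    (h2 : ∀ W ∈ Bd ρ σ q, 0 < (W (bil u0 (Jm ρ σ α q u0) / bil v0 (Jm ρ σ α q v0))).re)
    (h3 : ∀ W ∈ Bd ρ σ q, 0 < (W (bil z0 (Jm ρ σ α q z0) / bil v0 (Jm ρ σ α q v0))).re)
    (hP : P p) : ∀ᶠ v in nh (Bd ρ σ q) v0, Pt ρ v → P v := by
  rcases (Bd ρ σ q).eq_empty_or_nonempty with he | hN
  · refine Eventually.of_forall fun v hv => ?_
    obtain ⟨u, z, c1, c2, c3, c4, c5⟩ := connected H.ρ3 hne hp hv hv0 hpv
    have e : ∀ x : E, ∀ W ∈ Bd ρ σ q, 0 < (W x).re := fun x W hW => by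
      rw [he] at hW
      exact absurd hW (Set.notMem_empty W)
    exact step z v c2 hv c5 (e _) (step u z c1 c2 c4 (e _) (step p u hp c1 c3 (e _) hP))
  · have e1 : ∀ W ∈ Bd ρ σ q, 0 < (W (bil (uu p u0 v0) (Jm ρ σ α q (uu p u0 v0)) /
        bil v0 (Jm ρ σ α q v0))).re := by
      intro W hW
      rw [uu_of huv, bJ_smul H]
      exact Bd_norm H hW hpv (h2 W hW)
    have e2 : ∀ W ∈ Bd ρ σ q, 0 < (W (bil (zz ρ p u0 v0) (Jm ρ σ α q (zz ρ p u0 v0)) /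
        bil v0 (Jm ρ σ α q v0))).re := by
      intro W hW
      rw [zz_of huv, hz, smul_smul, bJ_smul H]
      exact Bd_norm H hW (mul_ne_zero ((map_ne_zero_iff ρ ρ.injective).2 hpv) hs) (h3 W hW)
    have h4 := path_near hS hN (Bd_rho H) (Bd_sig H) H.ρ3 hp hu hpu hpt hpv h0 e1 e2
    filter_upwards [h4] with v hv hvP
    obtain ⟨u, z, c1, c2, c3, c4, c5, c6⟩ := hv hvP
    refine step z v c2 hvP c5 (fun W hW => ?_) (step u z c1 c2 c4 (fun W hW => ?_)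
      (step p u hp c1 c3 (fun W hW => ?_) hP))
    · exact Bd_pos hW (bJ_fix H v) (bJ_fix H z) (bJ_fix H v0) (c6 W hW).2.2 (c6 W hW).2.1
    · exact Bd_pos hW (bJ_fix H z) (bJ_fix H u) (bJ_fix H v0) (c6 W hW).2.1 (c6 W hW).1
    · exact Bd_pos hW (bJ_fix H u) (bJ_fix H p) (bJ_fix H v0) (c6 W hW).1 (h1 W hW)

end

end Vale.Agent.P011.D4X
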