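import Vale.Agent.P011.D4X.H691.Ch
import Vale.Agent.P011.D4X.H553.TQ
import Vale.Agent.P011.D4X.H657.Jq

/-!
Block D4X: the involutions of the standard plane after a change of the quadratic extension.
-/

namespace Vale.Agent.P011.D4X

open Vale.Agent.P011.MPQ Vale.Agent.P011.D4 Vale.Agent.P011.D4.Oct Vale.Agent.P011.E6

section ext

variable {k E : Type} [Field k] [Field E] [Algebra k E] {a b c : kˣ}
  (O : Type) [Field O] [Algebra k O] [Algebra E O]

/-- Extension of the coefficients of a quaternion. -/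
def qO (x : Qt (up E a) (up E b)) : Qt (up O a) (up O b) :=
  ⟨algebraMap E O x.re, algebraMap E O x.imI, algebraMap E O x.imJ, algebraMap E O x.imK⟩

/-- Extension of the coefficients of an octonion. -/
def oO (x : OctL E a b c) : OctL O a b c := ⟨qO O x.fst, qO O x.snd⟩

variable {O}

@[simp] theorem qO_re (x : Qt (up E a) (up E b)) : (qO O x).re = algebraMap E O x.re := rfl

@[simp] theorem qO_imI (x : Qt (up E a) (up E b)) : (qO O x).imI = algebraMap E O x.imI := rfl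

@[simp] theorem qO_imJ (x : Qt (up E a) (up E b)) : (qO O x).imJ = algebraMap E O x.imJ := rfl

@[simp] theorem qO_imK (x : Qt (up E a) (up E b)) : (qO O x).imK = algebraMap E O x.imK := rfl

@[simp] theorem oO_fst (x : OctL E a b c) : (oO O x).fst = qO O x.fst := rfl

@[simp] theorem oO_snd (x : OctL E a b c) : (oO O x).snd = qO O x.snd := rfl

theorem qO_add (x y : Qt (up E a) (up E b)) : qO O (x + y) = qO O x + qO O y := by
  ext <;> simp

theorem qO_star (x : Qt (up E a) (up E b)) : qO O (star x) = star (qO O x) := by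
  ext <;> simp

theorem qO_smul (t : E) (x : Qt (up E a) (up E b)) : qO O (t • x) = algebraMap E O t • qO O x := by
  ext <;> simp <;> exact (Algebra.smul_def _ _).symm

theorem oO_add (x y : OctL E a b c) : oO O (x + y) = oO O x + oO O y := by
  ext1
  · exact qO_add _ _
  · exact qO_add _ _

theorem oO_star (x : OctL E a b c) : oO O (star x) = star (oO O x) := by
  ext1
  · exact qO_star _
  · ext <;> simp

theorem oO_smul (t : E) (x : OctL E a b c) : oO O (t • x) = algebraMap E O t • oO O x := by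
  ext1
  · exact qO_smul _ _
  · exact qO_smul _ _

theorem oO_neg (x : OctL E a b c) : oO O (-x) = -oO O x := by
  ext1 <;> ext <;> simp

theorem oO_zero : oO O (0 : OctL E a b c) = 0 := by
  ext1 <;> ext <;> simp

theorem oO_one : oO O (1 : OctL E a b c) = 1 := by
  ext1 <;> ext <;> simp

theorem oO_inj {x y : OctL E a b c} (h : oO O x = oO O y) : x = y := by
  have hi := (algebraMap E O).injective
  have h1 := congrArg Oct.fst h
  have h2 := congrArg Oct.snd h
  apply ext8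
  · exact hi (congrArg QuaternionAlgebra.re h1)
  · exact hi (congrArg QuaternionAlgebra.imI h1)
  · exact hi (congrArg QuaternionAlgebra.imJ h1)
  · exact hi (congrArg QuaternionAlgebra.imK h1)
  · exact hi (congrArg QuaternionAlgebra.re h2)
  · exact hi (congrArg QuaternionAlgebra.imI h2)
  · exact hi (congrArg QuaternionAlgebra.imJ h2)
  · exact hi (congrArg QuaternionAlgebra.imK h2)

variable [IsScalarTower k E O]

theorem up_tower (a : kˣ) : algebraMap E O (up E a : E) = (up O a : O) :=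
  (IsScalarTower.algebraMap_apply k E O (a : k)).symm

theorem qO_mul (x y : Qt (up E a) (up E b)) : qO O (x * y) = qO O x * qO O y := by
  have h : ∀ t : k, algebraMap E O (algebraMap k E t) = algebraMap k O t := fun t =>
    (IsScalarTower.algebraMap_apply k E O t).symm
  ext <;> simp [h]

theorem oO_mul (x y : OctL E a b c) : oO O (x * y) = oO O x * oO O y := by
  have hc := up_tower (E := E) (O := O) c
  ext1
  · change qO O (x.fst * y.fst + (up E c : E) • (star y.snd * x.snd)) = qO O x.fst * qO O y.fst +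
      (up O c : O) • (star (qO O y.snd) * qO O x.snd)
    rw [qO_add, qO_mul, qO_smul, qO_mul, qO_star, hc]
  · change qO O (y.snd * x.fst + x.snd * star y.fst) = qO O y.snd * qO O x.fst +
      qO O x.snd * star (qO O y.fst)
    rw [qO_add, qO_mul, qO_mul, qO_star]

theorem oO_oup (x : Oct a b c) : oO O (oup E x) = oup O x := by
  have h : ∀ t : k, algebraMap E O (algebraMap k E t) = algebraMap k O t := fun t =>
    (IsScalarTower.algebraMap_apply k E O t).symm
  apply ext8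
  · exact h _
  · exact h _
  · exact h _
  · exact h _
  · exact h _
  · exact h _
  · exact h _
  · exact h _

theorem omap_oO {ρ : E ≃ₐ[k] E} {ρ' : O ≃ₐ[k] O}
    (h : ∀ t, ρ' (algebraMap E O t) = algebraMap E O (ρ t)) (x : OctL E a b c) :
    omap ρ' (oO O x) = oO O (omap ρ x) := by
  ext1 <;> ext <;> simp [omap, h]

theorem tri_oO {ρ : E ≃ₐ[k] E} {ρ' : O ≃ₐ[k] O}
    (h : ∀ t, ρ' (algebraMap E O t) = algebraMap E O (ρ t)) (x y : OctL E a b c) :
    tri ρ' (oO O x) (oO O y) = oO O (tri ρ x y) := by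
  rw [tri, tri, oO_mul, ← oO_star, ← oO_star, omap_oO h, omap_oO h, omap_oO h]

theorem exists_oO {σ' : O ≃ₐ[k] O} (h : ∀ t, σ' t = t → ∃ s : E, algebraMap E O s = t)
    {x : OctL O a b c} (hx : omap σ' x = x) : ∃ y : OctL E a b c, oO O y = x := by
  have h1 := congrArg Oct.fst hx
  have h2 := congrArg Oct.snd hx
  obtain ⟨s1, e1⟩ := h _ (congrArg QuaternionAlgebra.re h1)
  obtain ⟨s2, e2⟩ := h _ (congrArg QuaternionAlgebra.imI h1)
  obtain ⟨s3, e3⟩ := h _ (congrArg QuaternionAlgebra.imJ h1)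
  obtain ⟨s4, e4⟩ := h _ (congrArg QuaternionAlgebra.imK h1)
  obtain ⟨s5, e5⟩ := h _ (congrArg QuaternionAlgebra.re h2)
  obtain ⟨s6, e6⟩ := h _ (congrArg QuaternionAlgebra.imI h2)
  obtain ⟨s7, e7⟩ := h _ (congrArg QuaternionAlgebra.imJ h2)
  obtain ⟨s8, e8⟩ := h _ (congrArg QuaternionAlgebra.imK h2)
  refine ⟨⟨⟨s1, s2, s3, s4⟩, ⟨s5, s6, s7, s8⟩⟩, ?_⟩
  apply ext8
  · exact e1
  · exact e2
  · exact e3
  · exact e4
  · exact e5
  · exact e6
  · exact e7
  · exact e8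

theorem emb_oO {a' b' c' : kˣ} {i j l : Oct a b c} (x : OctL E a' b' c') :
    oO O (emb (oup E i) (oup E j) (oup E l) x) = emb (oup O i) (oup O j) (oup O l) (oO O x) := by
  simp only [emb, qemb, oO_add, oO_mul, oO_smul, oO_oup, oO_one, oO_fst, oO_snd, qO_re, qO_imI,
    qO_imJ, qO_imK]

variable [NeZero (2 : E)] [NeZero (2 : O)]

theorem tripO_oO {a' b' c' : kˣ} {i j l : Oct a b c} (h : Trip a' b' c' i j l)
    (x : OctL E a' b' c') : tripO O h (oO O x) = oO O (tripO E h x) := by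
  rw [tripO_apply, tripO_apply, emb_oO]

theorem t0_oO (x : OctL E a b c) : t0 O a b c (oO O x) = oO O (t0 E a b c x) := by
  change (⟨qO O x.fst, -qO O x.snd⟩ : OctL O a b c) = ⟨qO O x.fst, qO O (-x.snd)⟩
  rw [Oct.mk.injEq]
  refine ⟨rfl, ?_⟩
  ext <;> simp

theorem tQ_oO {b' c' : kˣ} {j l : Oct a b c} (h : Trip a b' c' gi j l) (x : OctL E a b c) :
    tQ O h (oO O x) = oO O (tQ E h x) := by
  obtain ⟨y, rfl⟩ := (tripO E h).surjective x
  change tripO O h (t0 O a b' c' ((tripO O h).symm (oO O (tripO E h y)))) =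
    oO O (tripO E h (t0 E a b' c' ((tripO E h).symm (tripO E h y))))
  rw [← tripO_oO, LinearEquiv.symm_apply_apply, LinearEquiv.symm_apply_apply, t0_oO, tripO_oO]

end ext

section plane

variable {k O : Type} [Field k] [Field O] [Algebra k O] [NeZero (2 : O)] {ρ' σ' : O ≃ₐ[k] O}
  {α β : O} {a b c b' c' : kˣ} {j l : Oct a b c}

/-- The idempotent `(1 + w / β) / 2`. -/
def eW (β : O) {a b : kˣ} (w : Qt a b) : Qt (up O a) (up O b) :=
  (1 / 2 : O) • (1 : Qt (up O a) (up O b)) + (1 / (2 * β)) • qup O w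

omit [NeZero (2 : O)] in
theorem qmap_eW {τ : O ≃ₐ[k] O} (hβ : τ β = β) (w : Qt a b) : qmap τ (eW β w) = eW β w := by
  rw [eW, qmap_add, qmap_smul, qmap_smul, qmap_qup, qmap_one, map_div₀, map_div₀, map_mul, hβ,
    map_one, map_ofNat]

theorem star_eW {w : Qt a b} (hw0 : w.re = 0) {D : k} (hw : w * w = D • (1 : Qt a b))
    (hβ : β * β = algebraMap k O D) (hβ0 : β ≠ 0) : star (eW β w) * eW β w = 0 := by
  have h2 : (2 : O) ≠ 0 := NeZero.ne 2
  have h1 : star w = -w := by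
    ext <;> simp [hw0]
  have h3 : qup O w * qup O w = (β * β) • (1 : Qt (up O a) (up O b)) := by
    rw [← qup_mul, hw, hβ, qup_smul, qup_one]
  have h4 : star (qup O w) = -qup O w := by
    rw [← qup_star, h1, qup_neg]
  rw [eW, star_add, QuaternionAlgebra.star_smul, QuaternionAlgebra.star_smul, star_one, h4]
  rw [add_mul, mul_add, mul_add, smul_mul_smul_comm, smul_mul_smul_comm, smul_mul_smul_comm,
    smul_mul_smul_comm, one_mul, one_mul, mul_one, neg_mul, h3, smul_neg, smul_neg, smul_smul,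
    mul_comm (1 / (2 * β)) (1 / 2 : O)]
  have h5 : (1 / (2 * β)) * (1 / (2 * β)) * (β * β) = 1 / 2 * (1 / 2 : O) := by
    field_simp
  rw [h5]
  abel

/-- The plane `(e Q) l`. -/
def InS (β : O) (h : Trip a b' c' gi j l) (w : Qt a b') (y : OctL O a b c) : Prop :=
  ∃ x : Qt (up O a) (up O b'), y = tripO O h ⟨0, eW β w * x⟩

theorem InS.smul {h : Trip a b' c' gi j l} {w : Qt a b'} {y : OctL O a b c} (hy : InS β h w y)
    (t : O) : InS β h w (t • y) := by
  obtain ⟨x, rfl⟩ := hy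
  refine ⟨t • x, ?_⟩
  rw [← map_smul]
  congr 1
  ext1
  · rw [fst_smul, smul_zero]
  · rw [snd_smul, mul_smul_comm]

theorem InS.add {h : Trip a b' c' gi j l} {w : Qt a b'} {y z : OctL O a b c} (hy : InS β h w y)
    (hz : InS β h w z) : InS β h w (y + z) := by
  obtain ⟨x, rfl⟩ := hy
  obtain ⟨x', rfl⟩ := hz
  refine ⟨x + x', ?_⟩
  rw [← map_add]
  congr 1
  ext1
  · rw [fst_add, add_zero]
  · rw [snd_add, mul_add]

theorem tripO_Jq (h : Trip a b' c' gi j l) (q q' : O) (x : OctL O a b' c') :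
    tripO O h (Jq σ' α q q' x) = Jq σ' α q q' (tripO O h x) := by
  have e : ∀ {b' c' : kˣ} (x : OctL O a b' c'), Jq σ' α q q' x =
      (⟨mq a b' α q, 0⟩ : OctL O a b' c') * omap σ' x * ⟨mq a b' α (q * q'), 0⟩ := by
    intro b' c' x
    ext1
    · simp only [Jq, fst_mul, snd_mul, omap, star_zero, zero_mul, mul_zero, smul_zero, add_zero]
    · simp only [Jq, fst_mul, snd_mul, omap, zero_mul, mul_zero, zero_add, add_zero, mul_assoc]
  rw [e, e, tripO_mul, tripO_mul, tripO_mq, tripO_mq, tripO_omap]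

theorem InS.Jq_mem {h : Trip a b' c' gi j l} {w : Qt a b'} {y : OctL O a b c} (hy : InS β h w y)
    (hβ : σ' β = β) (q q' : O) : InS β h w (Jq σ' α q q' y) := by
  obtain ⟨x, rfl⟩ := hy
  refine ⟨qmap σ' x * (mq a b' α q * star (mq a b' α (q * q'))), ?_⟩
  rw [← tripO_Jq]
  congr 1
  ext1
  · change mq a b' α q * qmap σ' 0 * mq a b' α (q * q') = 0
    rw [qmap_zero, mul_zero, zero_mul]
  · change qmap σ' (eW β w * x) * _ = _
    rw [qmap_mul, qmap_eW hβ, mul_assoc]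

theorem InS.tri_self {h : Trip a b' c' gi j l} {w : Qt a b'} {y : OctL O a b c} (hy : InS β h w y)
    (hβ : ρ' β = β) (hw0 : w.re = 0) {D : k} (hw : w * w = D • (1 : Qt a b'))
    (hβD : β * β = algebraMap k O D) (hβ0 : β ≠ 0) : tri ρ' y y = 0 := by
  obtain ⟨x, rfl⟩ := hy
  rw [← tripO_tri]
  have h1 : tri ρ' (⟨0, eW β w * x⟩ : OctL O a b' c') ⟨0, eW β w * x⟩ = 0 := by
    have e1 : ∀ v : Qt (up O a) (up O b'), omap ρ' (star (⟨0, v⟩ : OctL O a b' c')) =
        ⟨0, -qmap ρ' v⟩ := by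
      intro v
      ext1
      · change qmap ρ' (star 0) = 0
        rw [star_zero, qmap_zero]
      · change qmap ρ' (-v) = -qmap ρ' v
        rw [qmap_neg]
    have e2 : qmap ρ' (qmap ρ' (eW β w * x)) = eW β w * qmap ρ' (qmap ρ' x) := by
      rw [qmap_mul, qmap_mul, qmap_eW hβ, qmap_eW hβ]
    have e3 : qmap ρ' (eW β w * x) = eW β w * qmap ρ' x := by
      rw [qmap_mul, qmap_eW hβ]
    rw [tri, e1]
    ext1
    · rw [fst_mul]
      change (0 : Qt (up O a) (up O b')) * qmap ρ' 0 + (up O c' : O) •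
        (star (qmap ρ' (-qmap ρ' (eW β w * x))) * -qmap ρ' (eW β w * x)) = 0
      rw [qmap_neg, star_neg, neg_mul_neg, e2, e3, star_mul, mul_assoc,
        ← mul_assoc (star (eW β w)), star_eW hw0 hw hβD hβ0]
      simp only [zero_mul, mul_zero, smul_zero, add_zero]
    · rw [snd_mul]
      change qmap ρ' (-qmap ρ' (eW β w * x)) * (0 : Qt (up O a) (up O b')) +
        -qmap ρ' (eW β w * x) * star (qmap ρ' 0) = 0
      rw [qmap_zero, star_zero, mul_zero, mul_zero, add_zero]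
  rw [h1, map_zero]

theorem InS.tQ_eq {h : Trip a b' c' gi j l} {w : Qt a b'} {y : OctL O a b c} (hy : InS β h w y) :
    tQ O h y = -y := by
  obtain ⟨x, rfl⟩ := hy
  change tripO O h (t0 O a b' c' ((tripO O h).symm (tripO O h ⟨0, eW β w * x⟩))) = _
  rw [LinearEquiv.symm_apply_apply, ← map_neg]
  congr 1
  ext1
  · exact neg_zero.symm
  · rfl

theorem InS.ne (h : Trip a b' c' gi j l) (w : Qt a b') (hw0 : w.re = 0) :
    ∃ y : OctL O a b c, InS β h w y ∧ y ≠ 0 := by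
  refine ⟨_, ⟨1, rfl⟩, ?_⟩
  rw [mul_one]
  intro h0
  have h1 : (⟨0, eW β w⟩ : OctL O a b' c') = 0 := (tripO O h).injective (by rw [h0, map_zero])
  have h2 := congrArg (fun z : OctL O a b' c' => z.snd.re) h1
  have h3 : (eW β w : Qt (up O a) (up O b')).re = 1 / 2 := by
    simp [eW, hw0]
  change (eW β w : Qt (up O a) (up O b')).re = 0 at h2
  rw [h3] at h2
  exact one_div_ne_zero (NeZero.ne (2 : O)) h2

/-- A singular vector of the new model in the eigenspace of the involution. -/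
theorem exists_sing {E1 : Type} [Field E1] [Algebra k E1] [Algebra E1 O] [IsScalarTower k E1 O]
    {ρ1 : E1 ≃ₐ[k] E1} {a1 b1 c1 : kˣ}
    (hρ1 : ∀ t, ρ' (algebraMap E1 O t) = algebraMap E1 O (ρ1 t))
    (hfix : ∀ t, σ' t = t → ∃ s : E1, algebraMap E1 O s = t) (σ2 : ∀ t, σ' (σ' t) = t)
    (hσα : σ' α = -α) (hα : α ≠ 0) (hσβ : σ' β = β) (hρβ : ρ' β = β) {D : k}
    (hβD : β * β = algebraMap k O D) (hβ : β ≠ 0) {q q' : O}
    {u : OctL O a1 b1 c1 ≃ₗ[O] OctL O a b c} {e s : O} (he : e ≠ 0) (hs : s ≠ 0)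
    (hu1 : ∀ x y, tri ρ' (u x) (u y) = e • u (tri ρ' x y))
    (hu2 : ∀ x, Jq σ' α q q' (u x) = s • u (omap σ' x))
    (h : Trip a b' c' gi j l) {w : Qt a b'} (hw0 : w.re = 0) (hw : w * w = D • (1 : Qt a b')) :
    ∃ v : OctL E1 a1 b1 c1, Pt ρ1 v ∧ tQ O h (u (oO O v)) = -u (oO O v) := by
  obtain ⟨y, hy, hy0⟩ := InS.ne (β := β) h w hw0
  have hss : ∀ x, InS β h w (u x) → InS β h w (u (omap σ' x)) := by
    intro x hx
    have h1 := (hx.Jq_mem (σ' := σ') (α := α) hσβ q q').smul s⁻¹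
    rwa [hu2, smul_smul, inv_mul_cancel₀ hs, one_smul] at h1
  have key : ∃ x, x ≠ 0 ∧ InS β h w (u x) ∧ omap σ' x = x := by
    have hx0 : u.symm y ≠ 0 := fun h0 => hy0 (by rw [← u.apply_symm_apply y, h0, map_zero])
    have hxS : InS β h w (u (u.symm y)) := by rwa [u.apply_symm_apply]
    generalize u.symm y = x at hx0 hxS
    by_cases hx : x + omap σ' x = 0
    · refine ⟨α • x, smul_ne_zero hα hx0, ?_, ?_⟩
      · rw [map_smul]
        exact hxS.smul α
      · rw [omap_smul, hσα, eq_neg_of_add_eq_zero_right hx, smul_neg, neg_smul, neg_neg]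
    · refine ⟨_, hx, ?_, ?_⟩
      · rw [map_add]
        exact hxS.add (hss x hxS)
      · rw [omap_add, add_comm]
        congr 1
        ext1 <;> ext <;> simp [omap, σ2]
  obtain ⟨x, hx0, hxS, hxσ⟩ := key
  obtain ⟨v, rfl⟩ := exists_oO hfix hxσ
  refine ⟨v, ⟨fun h0 => hx0 (by rw [h0, oO_zero]), ?_⟩, hxS.tQ_eq⟩
  apply oO_inj (O := O)
  rw [oO_zero, ← tri_oO hρ1]
  apply u.injective
  have h1 := hu1 (oO O v) (oO O v)
  rw [hxS.tri_self hρβ hw0 hw hβD hβ] at h1
  rw [map_zero]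
  exact (smul_eq_zero.mp h1.symm).resolve_left he

end plane

section tq

variable {k L E : Type} [Field k] [Field L] [Field E] [Algebra k L] [Algebra k E] [Algebra L E]
  [IsScalarTower k L E] [NeZero (2 : E)] {ρ σ : E ≃ₐ[k] E} {α : E} {a b c b' c' : kˣ} {q : Lˣ}
  {j l : Oct a b c}

theorem t0_t0 (x : OctL E a b c) : t0 E a b c (t0 E a b c x) = x := by
  change (⟨x.fst, - -x.snd⟩ : OctL E a b c) = x
  rw [neg_neg]

theorem t0_tri (x y : OctL E a b c) :
    t0 E a b c (tri ρ x y) = tri ρ (t0 E a b c x) (t0 E a b c y) := by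
  have e1 : ∀ z : OctL E a b c, omap ρ (t0 E a b c z) = t0 E a b c (omap ρ z) := by
    intro z
    ext1
    · rfl
    · exact qmap_neg ρ _
  have e2 : ∀ z : OctL E a b c, star (t0 E a b c z) = t0 E a b c (star z) := by
    intro z
    ext1
    · rfl
    · rfl
  have e3 : ∀ z w : OctL E a b c, t0 E a b c (z * w) = t0 E a b c z * t0 E a b c w := by
    intro z w
    ext1
    · change (z * w).fst = (t0 E a b c z * t0 E a b c w).fst
      rw [fst_mul, fst_mul]
      change _ = z.fst * w.fst + (up E c : E) • (star (-w.snd) * -z.snd)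
      rw [star_neg, neg_mul_neg]
    · change -(z * w).snd = (t0 E a b c z * t0 E a b c w).snd
      rw [snd_mul, snd_mul]
      change _ = -w.snd * z.fst + -z.snd * star w.fst
      rw [neg_mul, neg_mul, neg_add]
  rw [tri, tri, e3, e2, e2, e1, e1, e1]

theorem t0_Jm (x : OctL E a b c) :
    t0 E a b c (Jm ρ σ α q x) = Jm ρ σ α q (t0 E a b c x) := by
  ext1
  · rfl
  · change -(qmap σ x.snd * _) = qmap σ (-x.snd) * _
    rw [qmap_neg, neg_mul]

theorem tQ_tQ (h : Trip a b' c' gi j l) (x : OctL E a b c) : tQ E h (tQ E h x) = x := by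
  change tripO E h (t0 E a b' c' ((tripO E h).symm (tripO E h (t0 E a b' c'
    ((tripO E h).symm x))))) = x
  rw [LinearEquiv.symm_apply_apply, t0_t0, LinearEquiv.apply_symm_apply]

theorem tQ_mem (h : Trip a b' c' gi j l) : tQ E h ∈ GT ρ σ α a b c q := by
  refine ⟨fun x y => ?_, fun x => ?_⟩
  · obtain ⟨x, rfl⟩ := (tripO E h).surjective x
    obtain ⟨y, rfl⟩ := (tripO E h).surjective y
    change tripO E h (t0 E a b' c' ((tripO E h).symm _)) =
      tri ρ (tripO E h (t0 E a b' c' ((tripO E h).symm _)))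
        (tripO E h (t0 E a b' c' ((tripO E h).symm _)))
    rw [← tripO_tri, LinearEquiv.symm_apply_apply, LinearEquiv.symm_apply_apply,
      LinearEquiv.symm_apply_apply, t0_tri, tripO_tri]
  · obtain ⟨x, rfl⟩ := (tripO E h).surjective x
    change tripO E h (t0 E a b' c' ((tripO E h).symm _)) =
      Jm ρ σ α q (tripO E h (t0 E a b' c' ((tripO E h).symm _)))
    rw [← tripO_Jm, LinearEquiv.symm_apply_apply, LinearEquiv.symm_apply_apply, t0_Jm,
      tripO_Jm]

variable (ρ σ α q) in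
/-- The involution, as an element of `AT`. -/
noncomputable def tAT (h : Trip a b' c' gi j l) : AT ρ σ α a b c q :=
  ⟨tQ E h, ⟨1, fun x y => by
    rw [Units.val_one, map_one, one_smul]
    exact (tQ_mem (ρ := ρ) (σ := σ) (α := α) (q := q) h).1 x y⟩,
    (tQ_mem (ρ := ρ) (σ := σ) (α := α) (q := q) h).2⟩

theorem tAT_kap (h : Trip a b' c' gi j l) : IsKap ρ (tAT ρ σ α q h).1 (1 : Lˣ) := fun x y => by
  rw [Units.val_one, map_one, one_smul]
  exact (tQ_mem (ρ := ρ) (σ := σ) (α := α) (q := q) h).1 x y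

theorem tAT_sq (h : Trip a b' c' gi j l) : tAT ρ σ α q h * tAT ρ σ α q h = 1 := by
  apply Subtype.ext
  apply LinearEquiv.ext
  intro x
  exact tQ_tQ h x

theorem tAT_ne (h : Trip a b' c' gi j l) : tAT ρ σ α q h ≠ 1 := by
  intro h1
  have h2 : tQ E h (tripO E h gl) = tripO E h gl :=
    congrArg (fun z : AT ρ σ α a b c q => z.1 (tripO E h gl)) h1
  change tripO E h (t0 E a b' c' ((tripO E h).symm (tripO E h gl))) = tripO E h gl at h2
  rw [LinearEquiv.symm_apply_apply] at h2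
  have h3 := congrArg (fun z : OctL E a b' c' => z.snd.re) ((tripO E h).injective h2)
  change -(1 : E) = 1 at h3
  exact NeZero.ne (2 : E) (by linear_combination -h3)

theorem mem_stab_iff {h : Trip a b' c' gi j l} {z : AT ρ σ α a b c q} :
    z ∈ stab ρ σ α q h ↔ z * tAT ρ σ α q h = tAT ρ σ α q h * z := by
  constructor
  · intro hz
    exact Subtype.ext hz
  · intro hz
    exact congrArg Subtype.val hz

end tq

section main

variable {k L E E1 O : Type} [Field k] [Field L] [Field E] [Field E1] [Field O] [Algebra k L]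
  [Algebra k E] [Algebra L E] [IsScalarTower k L E] [Algebra k E1] [Algebra L E1]
  [IsScalarTower k L E1] [Algebra k O] [Algebra E O] [Algebra E1 O] [IsScalarTower k E O]
  [IsScalarTower k E1 O] [NeZero (2 : k)] [NeZero (2 : E)] [NeZero (2 : E1)] [NeZero (2 : O)]
  {ρ σ : E ≃ₐ[k] E} {ρL : L ≃ₐ[k] L} {α : E} {a b c : kˣ} {q : Lˣ}
  {ρ1 σ1 : E1 ≃ₐ[k] E1} {α1 : E1} {a1 b1 c1 : kˣ} {q1 : Lˣ}
  {ρ' σ' : O ≃ₐ[k] O} {b' c' : kˣ} {j l : Oct a b c}

/-- **Z5.** The involution of `Q'` is carried, by the change of the quadratic extension and an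
element of the subgroup generated by the centralisers, to an involution of the new standard
plane. -/
theorem z5 (H1 : Hy ρ1 σ1 ρL α1 a1 b1 c1 q1)
    (hρ1 : ∀ t, ρ' (algebraMap E1 O t) = algebraMap E1 O (ρ1 t))
    (hσ1 : ∀ t, σ' (algebraMap E1 O t) = algebraMap E1 O t)
    (hfix : ∀ t, σ' t = t → ∃ s : E1, algebraMap E1 O s = t) (σ2 : ∀ t, σ' (σ' t) = t)
    {β : O} (hσβ : σ' β = -β) (hβ : β ≠ 0) {r r' : O}
    {u : OctL O a1 b1 c1 ≃ₗ[O] OctL O a b c} {e s : O} (he : e ≠ 0) (hs : s ≠ 0)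
    (hu1 : ∀ x y, tri ρ' (u x) (u y) = e • u (tri ρ' x y))
    (hu2 : ∀ x, Jq σ' β r r' (u x) = s • u (omap σ' x))
    (φ : AT ρ σ α a b c q ≃* AT ρ1 σ1 α1 a1 b1 c1 q1)
    (hφ : ∀ (z : AT ρ σ α a b c q) (zO : OctL O a b c ≃ₗ[O] OctL O a b c),
      (∀ x, zO (oO O x) = oO O (z.1 x)) → ∀ x, u (oO O ((φ z).1 x)) = zO (u (oO O x)))
    (hκ : ∀ (z : AT ρ σ α a b c q) (κ : Lˣ), IsKap ρ z.1 κ → IsKap ρ1 (φ z).1 κ)
    (hgen : ∀ v : OctL E1 a1 b1 c1, Pt ρ1 v → ∃ y ∈ stabs ρ1 σ1 α1 a1 b1 c1 q1, ∃ t : E1,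
      t ≠ 0 ∧ y.1 (tri ρ1 v (Jm ρ1 σ1 α1 q1 v)) = t • ep α1)
    (h : Trip a b' c' gi j l) {w : Qt a b'} (hw0 : w.re = 0)
    (hw : w * w = (a1 : k) • (1 : Qt a b')) :
    ∃ y ∈ stabs ρ1 σ1 α1 a1 b1 c1 q1, ∃ (b2 c2 : kˣ) (j1 l1 : Oct a1 b1 c1)
      (h1 : Trip a1 b2 c2 gi j1 l1), y * φ (tAT ρ σ α q h) * y⁻¹ = tAT ρ1 σ1 α1 q1 h1 := by
  have hβ1 : algebraMap E1 O α1 * algebraMap E1 O α1 = algebraMap k O (a1 : k) := by
    rw [← map_mul, H1.α2, ← IsScalarTower.algebraMap_apply]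
  have hβ10 : algebraMap E1 O α1 ≠ 0 := by
    intro h0
    rw [h0, mul_zero] at hβ1
    exact (map_ne_zero (algebraMap k O)).mpr a1.ne_zero hβ1.symm
  obtain ⟨v, hv, hvt⟩ := exists_sing (E1 := E1) (a1 := a1) (b1 := b1) (c1 := c1) hρ1 hfix σ2 hσβ hβ
    (hσ1 α1) (by rw [hρ1, H1.ρα]) hβ1 hβ10 he hs hu1 hu2 h hw0 hw
  set T := φ (tAT ρ σ α q h) with hT
  have hTv : T.1 v = -v := by
    apply oO_inj (O := O)
    apply u.injective
    rw [hφ (tAT ρ σ α q h) (tQ O h) (fun x => tQ_oO h x), hvt, oO_neg, map_neg]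
  have hTk : IsKap ρ1 T.1 (1 : Lˣ) := hκ _ _ (tAT_kap h)
  obtain ⟨y, hy, t, ht, hyt⟩ := hgen v hv
  have hneg : Jm ρ1 σ1 α1 q1 (-v) = -Jm ρ1 σ1 α1 q1 v := by
    ext1
    · change mq a1 b1 α1 _ * qmap σ1 (-v.fst) * _ = -(mq a1 b1 α1 _ * qmap σ1 v.fst * _)
      rw [qmap_neg, mul_neg, neg_mul]
    · change qmap σ1 (-v.snd) * _ = -(qmap σ1 v.snd * _)
      rw [qmap_neg, neg_mul]
  have hTs : T.1 (tri ρ1 v (Jm ρ1 σ1 α1 q1 v)) = tri ρ1 v (Jm ρ1 σ1 α1 q1 v) := by
    rw [hTk, Units.val_one, map_one, one_smul, T.2.2, hTv, hneg, tri_neg_left, tri_neg_right,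
      neg_neg]
  set S := y * T * y⁻¹ with hS
  have hSS : S * S = 1 := by
    have e1 : T * T = 1 := by rw [hT, ← map_mul, tAT_sq, map_one]
    calc S * S = y * (T * T) * y⁻¹ := by rw [hS]; group
      _ = 1 := by rw [e1]; group
  have hS1 : S ≠ 1 := by
    intro h1
    apply tAT_ne (ρ := ρ) (σ := σ) (α := α) (q := q) h
    apply φ.injective
    rw [map_one, ← hT]
    have e2 : T = y⁻¹ * S * y := by rw [hS]; group
    rw [e2, h1]
    group
  have hSe : S.1 (ep α1) = ep α1 := by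
    have e3 : y.1⁻¹ (t • ep α1) = tri ρ1 v (Jm ρ1 σ1 α1 q1 v) := by
      rw [← hyt]
      exact y.1.symm_apply_apply _
    have e4 : S.1 (t • ep α1) = t • ep α1 := by
      change y.1 (T.1 (y.1⁻¹ (t • ep α1))) = t • ep α1
      rw [e3, hTs, hyt]
    rw [map_smul] at e4
    exact smul_right_injective _ ht e4
  have hSk : IsKap ρ1 S.1 (1 : Lˣ) := by
    obtain ⟨κ, hκy⟩ := y.2.1
    have e5 := (hκy.mul hTk).mul hκy.inv
    have e6 : κ * 1 * κ⁻¹ = 1 := by group
    rw [e6] at e5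
    exact e5
  have hSG : S.1 ∈ GT ρ1 σ1 α1 a1 b1 c1 q1 := by
    refine ⟨fun x z => ?_, S.2.2⟩
    rw [hSk, Units.val_one, map_one, one_smul]
  obtain ⟨b2, c2, j1, l1, h1, h2⟩ := exists_tQ H1 hSG (fun h0 => hS1 (Subtype.ext h0))
    (congrArg Subtype.val hSS) hSe
  exact ⟨y, hy, b2, c2, j1, l1, h1, Subtype.ext h2⟩

/-- The centralisers correspond. -/
theorem z5_stab {φ : AT ρ σ α a b c q ≃* AT ρ1 σ1 α1 a1 b1 c1 q1} {h : Trip a b' c' gi j l}
    {y z : AT ρ1 σ1 α1 a1 b1 c1 q1} {b2 c2 : kˣ} {j1 l1 : Oct a1 b1 c1}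
    {h1 : Trip a1 b2 c2 gi j1 l1}
    (hy : y * φ (tAT ρ σ α q h) * y⁻¹ = tAT ρ1 σ1 α1 q1 h1) (hz : z ∈ stab ρ1 σ1 α1 q1 h1) :
    φ.symm (y⁻¹ * z * y) ∈ stab ρ σ α q h := by
  rw [mem_stab_iff] at hz ⊢
  rw [← hy] at hz
  apply φ.injective
  rw [φ.map_mul, φ.map_mul, MulEquiv.apply_symm_apply]
  have e1 : y⁻¹ * (z * (y * φ (tAT ρ σ α q h) * y⁻¹)) * y =
      y⁻¹ * ((y * φ (tAT ρ σ α q h) * y⁻¹) * z) * y := by rw [hz]
  calc y⁻¹ * z * y * φ (tAT ρ σ α q h) = y⁻¹ * (z * (y * φ (tAT ρ σ α q h) * y⁻¹)) * y := by group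
    _ = y⁻¹ * ((y * φ (tAT ρ σ α q h) * y⁻¹) * z) * y := e1
    _ = φ (tAT ρ σ α q h) * (y⁻¹ * z * y) := by group

end main

end Vale.Agent.P011.D4X
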