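import Vale.Agent.P011.D4X.H69.NearGen
import Vale.Agent.P011.D4X.H659.StepB

/-!
Block D4X: the planes of the singular elements near the standard one.
-/

open Filter Topology NumberField
open scoped ComplexConjugate

set_option linter.unusedSectionVars false

namespace Vale.Agent.P011.D4X

open Vale.Agent.P011.MPQ Vale.Agent.P011.D4 Vale.Agent.P011.D4.Oct

section

variable {k L E : Type} [Field k] [NumberField k] [Field L] [Field E] [Algebra k L] [Algebra k E]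
  [Algebra L E] [IsScalarTower k L E] {ρ σ : E ≃ₐ[k] E} {ρL : L ≃ₐ[k] L} {α : E}
  {a b c : kˣ} {q : Lˣ} (H : Hy ρ σ ρL α a b c q)

include H

theorem rho_ne : ρ ≠ 1 := by
  rintro rfl
  apply H.ρ1
  ext t
  exact (algebraMap L E).injective (H.ρL' t).symm

theorem Bd_finite : (Bd ρ σ q).Finite := by
  have : FiniteDimensional k L := Module.finite_of_finrank_pos (by rw [H.h3]; norm_num)
  have : FiniteDimensional L E := Module.finite_of_finrank_pos (by rw [H.h2]; norm_num)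
  have : FiniteDimensional k E := FiniteDimensional.trans k L E
  have : NumberField E := NumberField.of_module_finite k E
  exact Set.toFinite _

variable [NeZero (2 : E)] {P : Subgroup Lˣ}
  (hP : ∀ κ : Lˣ, (∀ w : L →+* ℝ, w (algebraMap k L a) < 0 → 0 < w (κ : L)) → κ ∈ P)

include hP

theorem PPP_std : PPP P ρ σ α q (ep α * oup E (gl : Oct a b c)) := by
  have h1 := line1P H hP (b := b) (c := c) 1 0 (by
    rw [map_one, map_zero, mul_one, mul_zero, mul_zero, zero_div, sub_zero]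
    exact ⟨1, map_one _, fun w _ => by rw [map_one]; exact one_pos⟩)
  rwa [one_smul, zero_smul, add_zero, ← oup_gl] at h1

theorem near_of_base {y1 y2 y3 : AT ρ σ α a b c q} (m1 : y1 ∈ stabsP P ρ σ α a b c q)
    (m2 : y2 ∈ stabsP P ρ σ α a b c q) (m3 : y3 ∈ stabsP P ρ σ α a b c q)
    (k1 : IsKap ρ y1.1 (1 : Lˣ)) (k2 : IsKap ρ y2.1 (1 : Lˣ))
    (k3 : IsKap ρ y3.1 (1 : Lˣ)) {v0 : OctL E a b c}
    (hv0 : Pt ρ v0) (hP0 : PPP P ρ σ α q v0) (hnb : Nb ρ (y3.1 v0) v0)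
    (hind : ∀ t : E, v0 ≠ t • y3.1 v0) (hb : bil (y1.1 (y2.1 (y3.1 v0))) v0 ≠ 0)
    (hb0 : bil (y1.1 (y2.1 v0)) v0 = 0) {s : E} (hs : s ≠ 0)
    (ht : tri ρ (y1.1 (y2.1 v0)) v0 = s • y1.1 v0) :
    ∀ᶠ v in nh (Bd ρ σ q) v0, Pt ρ v → PPP P ρ σ α q v := by
  have hk : ∀ (z : AT ρ σ α a b c q), IsKap ρ z.1 (1 : Lˣ) → ∀ v : OctL E a b c,
      Oct.bil (z.1 v) (Jm ρ σ α q (z.1 v)) = Oct.bil v (Jm ρ σ α q v) := by
    intro z hz v
    have h1 := hh_kap (q := q) H.ρ3 z hz v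
    rw [Units.val_one, map_one, map_one, map_one, one_mul, one_mul] at h1
    exact h1
  have hh0 : Oct.bil v0 (Jm ρ σ α q v0) ≠ 0 := aniso H hv0.1
  have hone : ∀ {x : E}, x = Oct.bil v0 (Jm ρ σ α q v0) → ∀ W ∈ Bd ρ σ q,
      0 < (W (x / Oct.bil v0 (Jm ρ σ α q v0))).re := by
    rintro x rfl W -
    rw [div_self hh0, map_one, Complex.one_re]
    exact one_pos
  refine near_gen_of H (Bd_finite H) (rho_ne H) (P := PPP P ρ σ α q)
    (p := y1.1 (y2.1 (y3.1 v0))) (u0 := y1.1 (y2.1 v0)) (z0 := y1.1 v0) (s := s)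
    (fun v v' h1 h2 h3 h4 h5 => stepB H hP h1 h2 h3 (fun W hW => h4 W hW) h5)
    (pt_AT y1 (pt_AT y2 (pt_AT y3 hv0))) (pt_AT y1 (pt_AT y2 hv0)) hv0
    (nb_AT y1 (nb_AT y2 hnb)) (fun t h => hind t ?_) hb hb0 hs ht hh0
    (hone ?_) (hone ?_) (hone ?_) (PPP_AT m1 (PPP_AT m2 (PPP_AT m3 hP0)))
  · apply y2.1.injective
    apply y1.1.injective
    rw [h, map_smul, map_smul]
  · rw [hk y1 k1, hk y2 k2, hk y3 k3]
  · rw [hk y1 k1, hk y2 k2]
  · rw [hk y1 k1]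

end

end Vale.Agent.P011.D4X
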