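import Vale.Agent.P011.D4X.H408.Top
import Vale.Agent.P011.D4X.H493.Nbr

/-!
Block D4X: chains of singular elements which end at an element near a given one.
-/

open Filter Topology

namespace Vale.Agent.P011.D4X

open Vale.Agent.P011.MPQ Vale.Agent.P011.D4 Vale.Agent.P011.D4.Oct

section

variable {k E : Type} [Field k] [Field E] [Algebra k E] {a b c : kˣ} {ρ σ : E ≃ₐ[k] E}

/-- The first point of the chain. -/
def uu (p u0 v : OctL E a b c) : OctL E a b c := bil p v • u0 - bil u0 v • p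

/-- The second point of the chain. -/
def zz (ρ : E ≃ₐ[k] E) (p u0 v : OctL E a b c) : OctL E a b c := tri ρ (uu p u0 v) v

theorem uu_of {p u0 v : OctL E a b c} (h : bil u0 v = 0) : uu p u0 v = bil p v • u0 := by
  rw [uu, h, zero_smul, sub_zero]

theorem zz_of {p u0 v : OctL E a b c} (h : bil u0 v = 0) :
    zz ρ p u0 v = ρ (bil p v) • tri ρ u0 v := by
  rw [zz, uu_of h, tri_smul_left]

theorem chain (hρ : ∀ m, ρ (ρ (ρ m)) = m) {p u0 v : OctL E a b c} (hp : Pt ρ p) (hu : Pt ρ u0)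
    (hpu : Nb ρ p u0) (hne : ∀ t : E, u0 ≠ t • p) (hv : Pt ρ v) (hpv : bil p v ≠ 0)
    (hz : zz ρ p u0 v ≠ 0) : Pt ρ (uu p u0 v) ∧ Pt ρ (zz ρ p u0 v) ∧ Nb ρ p (uu p u0 v) ∧
      Nb ρ (uu p u0 v) (zz ρ p u0 v) ∧ Nb ρ (zz ρ p u0 v) v := by
  have e : uu p u0 v = bil p v • u0 + (-bil u0 v) • p := by
    rw [uu, neg_smul, sub_eq_add_neg]
  have h1 : Nb ρ p (uu p u0 v) := by
    rw [e]
    exact (hpu.smul _).add (hp.nb_self.smul _)
  have h2 : Nb ρ u0 (uu p u0 v) := by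
    rw [e]
    exact (hu.nb_self.smul _).add (hpu.symm.smul _)
  have h3 : tri ρ (uu p u0 v) (uu p u0 v) = 0 := by
    nth_rewrite 1 [e]
    rw [tri_add_left, tri_smul_left, tri_smul_left, h1.1, h2.1, smul_zero, smul_zero, add_zero]
  have h4 : uu p u0 v ≠ 0 := by
    intro h0
    apply hne ((bil p v)⁻¹ * bil u0 v)
    rw [uu, sub_eq_zero] at h0
    rw [mul_smul, ← h0, smul_smul, inv_mul_cancel₀ hpv, one_smul]
  have h5 : bil (uu p u0 v) v = 0 := by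
    rw [e, bil_add_left, bil_smul_left, bil_smul_left]
    ring
  obtain ⟨m1, m2, m3⟩ := mid hρ ⟨h4, h3⟩ hv h5
  exact ⟨⟨h4, h3⟩, ⟨hz, m1⟩, h1, m2, m3⟩

variable {L : Type} [Field L] [Algebra L E] {α : E} {q : Lˣ}

theorem zz_cont {S : Set (E →+* ℂ)} {F : Filter (OctL E a b c)}
    (hρS : ∀ w ∈ S, w.comp (ρ : E →+* E) ∈ S) {v0 : OctL E a b c}
    (h : TO S F (fun v => v) v0) (p u0 : OctL E a b c) :
    TO S F (fun v => uu p u0 v) (uu p u0 v0) ∧ TO S F (fun v => zz ρ p u0 v) (zz ρ p u0 v0) := by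
  have cu : TO S F (fun v => uu p u0 v) (uu p u0 v0) :=
    (TO.smul ((TO.const S F p).bil h) (TO.const S F u0)).sub
      (TO.smul ((TO.const S F u0).bil h) (TO.const S F p))
  exact ⟨cu, cu.tri hρS h⟩

/-- **Chains which end near a given element.** -/
theorem path_near {S : Set (E →+* ℂ)} (hS : S.Finite) (hne : S.Nonempty)
    (hρS : ∀ w ∈ S, w.comp (ρ : E →+* E) ∈ S) (hσS : ∀ w ∈ S, w.comp (σ : E →+* E) ∈ S)
    (hρ : ∀ m, ρ (ρ (ρ m)) = m) {p u0 v0 : OctL E a b c} (hp : Pt ρ p)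
    (hu : Pt ρ u0) (hpu : Nb ρ p u0) (hpt : ∀ t : E, u0 ≠ t • p) (hpv : bil p v0 ≠ 0)
    (h0 : bil v0 (Jm ρ σ α q v0) ≠ 0)
    (h1 : ∀ W ∈ S, 0 < (W (bil (uu p u0 v0) (Jm ρ σ α q (uu p u0 v0)) /
      bil v0 (Jm ρ σ α q v0))).re)
    (h2 : ∀ W ∈ S, 0 < (W (bil (zz ρ p u0 v0) (Jm ρ σ α q (zz ρ p u0 v0)) /
      bil v0 (Jm ρ σ α q v0))).re) :
    ∀ᶠ v in nh S v0, Pt ρ v → ∃ u z, Pt ρ u ∧ Pt ρ z ∧ Nb ρ p u ∧ Nb ρ u z ∧ Nb ρ z v ∧
      ∀ W ∈ S, 0 < (W (bil u (Jm ρ σ α q u) / bil v0 (Jm ρ σ α q v0))).re ∧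
        0 < (W (bil z (Jm ρ σ α q z) / bil v0 (Jm ρ σ α q v0))).re ∧
        0 < (W (bil v (Jm ρ σ α q v) / bil v0 (Jm ρ σ α q v0))).re := by
  have ci := TO_id S v0
  obtain ⟨cu, cz⟩ := zz_cont hρS ci p u0
  have cJ : ∀ {f : OctL E a b c → OctL E a b c} {x : OctL E a b c}, TO S (nh S v0) f x →
      TE S (nh S v0) (fun v => bil (f v) (Jm ρ σ α q (f v)) / bil v0 (Jm ρ σ α q v0))
        (bil x (Jm ρ σ α q x) / bil v0 (Jm ρ σ α q v0)) := fun hf =>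
    (hf.bil (hf.Jm hσS)).div (TE.const _ _ _) h0
  have hz0 : zz ρ p u0 v0 ≠ 0 := by
    intro e
    obtain ⟨W, hW⟩ := hne
    have h3 := h2 W hW
    rw [e, bil_zero_left, zero_div, map_zero, Complex.zero_re] at h3
    exact lt_irrefl _ h3
  have e1 := (cJ cu).eventually_pos hS h1
  have e2 := (cJ cz).eventually_pos hS h2
  have e3 := (cJ ci).eventually_pos hS (by
    intro W _
    rw [div_self h0, map_one, Complex.one_re]
    exact one_pos)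
  have e4 := ((TO.const S (nh S v0) p).bil ci).eventually_ne hne hpv
  filter_upwards [e1, e2, e3, e4] with v g1 g2 g3 g4 hv
  have g5 : zz ρ p u0 v ≠ 0 := by
    intro e
    obtain ⟨W, hW⟩ := hne
    have h3 := g2 W hW
    rw [e, bil_zero_left, zero_div, map_zero, Complex.zero_re] at h3
    exact lt_irrefl _ h3
  obtain ⟨c1, c2, c3, c4, c5⟩ := chain hρ hp hu hpu hpt hv g4 g5
  exact ⟨uu p u0 v, zz ρ p u0 v, c1, c2, c3, c4, c5, fun W hW => ⟨g1 W hW, g2 W hW, g3 W hW⟩⟩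

end

end Vale.Agent.P011.D4X
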